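import Mathlib

/-!
P282, analytic double points: affine domains over `ℂ` are analytically unramified.
-/

open TensorProduct

namespace Vale.Agent.P282A7

/-- sequence form of: the `J`-adic completion is reduced -/
def SeqRed {A : Type} [CommRing A] (J : Ideal A) : Prop :=
  ∀ x : ℕ → A, (∀ k, x (k + 1) - x k ∈ J ^ k) → (∀ k, x k ^ 2 ∈ J ^ k) → ∀ k, x k ∈ J ^ k

theorem red_tensor (B A C : Type) [CommRing B] [IsDomain B] [CharZero B] [CommRing A] [IsDomain A]
    [Algebra B A] [Module.Finite B A] [FaithfulSMul B A] [CommRing C] [IsDomain C] [Algebra B C]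
    [Module.Flat B C] : IsReduced (C ⊗[B] A) := by
  let K := FractionRing B
  let L := FractionRing A
  let F := FractionRing C
  let _ : Algebra K L := FractionRing.liftAlgebra B L
  have : IsScalarTower B K L := FractionRing.isScalarTower_liftAlgebra B L
  have : Algebra.IsAlgebraic A L := IsLocalization.isAlgebraic L (nonZeroDivisors A)
  have : Algebra.IsAlgebraic B L := Algebra.IsAlgebraic.trans B A L
  have : Algebra.IsAlgebraic K L := Algebra.IsAlgebraic.extendScalars (R := B)
    (IsFractionRing.injective B K)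
  have : Algebra.FormallyUnramified B K :=
    Algebra.FormallyUnramified.of_isLocalization (nonZeroDivisors B)
  have : Algebra.FormallyUnramified K L := Algebra.FormallyUnramified.of_isSeparable K L
  have : Algebra.FormallyUnramified B L := Algebra.FormallyUnramified.comp B K L
  have : Algebra.EssFiniteType A L := Algebra.EssFiniteType.of_isLocalization L (nonZeroDivisors A)
  have : Algebra.EssFiniteType B L := Algebra.EssFiniteType.comp B A L
  have : IsReduced (F ⊗[B] L) := Algebra.FormallyUnramified.isReduced_of_field F _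
  have : Module.Flat B K := IsLocalization.flat K (nonZeroDivisors B)
  have : Module.Flat B L := Module.Flat.trans B K L
  refine isReduced_of_injective (Algebra.TensorProduct.map (IsScalarTower.toAlgHom B C F)
    (IsScalarTower.toAlgHom B A L)) ?_
  exact TensorProduct.map_injective_of_flat_flat' (IsScalarTower.toAlgHom B C F).toLinearMap
    (IsScalarTower.toAlgHom B A L).toLinearMap (IsFractionRing.injective C F)
    (IsFractionRing.injective A L)

open AdicCompletion in
theorem seqRed_of_red (B A : Type) [CommRing B] [IsNoetherianRing B] [CommRing A] [Algebra B A]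
    [Module.Finite B A] (n : Ideal B) [IsReduced (AdicCompletion n B ⊗[B] A)] :
    SeqRed (n.map (algebraMap B A)) := by
  set J := n.map (algebraMap B A) with hJ
  have mem : ∀ k (a : A), a ∈ (n ^ k • ⊤ : Submodule B A) ↔ a ∈ J ^ k := fun k a => by
    rw [Ideal.smul_top_eq_map, Ideal.map_pow]; rfl
  have le : ∀ k, n ^ k ≤ (J ^ k).comap (Algebra.ofId B A) := fun k b hb => by
    rw [hJ, ← Ideal.map_pow]; exact Ideal.mem_map_of_mem _ hb
  let π : ∀ k, AdicCompletion n B ⊗[B] A →ₐ[B] A ⧸ J ^ k := fun k =>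
    Algebra.TensorProduct.lift ((Ideal.quotientMapₐ (J ^ k) (Algebra.ofId B A) (le k)).comp
      (evalₐ n k)) (Ideal.Quotient.mkₐ B (J ^ k)) fun _ _ => Commute.all _ _
  have key : ∀ k z, ∃ a : A, (ofTensorProduct n A z).val k = Submodule.Quotient.mk a ∧
      π k z = Ideal.Quotient.mk _ a := by
    intro k z
    induction z with
    | zero => exact ⟨0, by simp, by simp⟩
    | add z w hz hw =>
      obtain ⟨a, h1, h2⟩ := hz
      obtain ⟨b, h3, h4⟩ := hw
      exact ⟨a + b, by rw [map_add, val_add_apply, h1, h3]; rfl, by rw [map_add, h2, h4]; rfl⟩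
    | tmul r a =>
      induction r using AdicCompletion.induction_on with
      | h f =>
        refine ⟨f.val k • a, by rw [ofTensorProduct_tmul, smul_eval]; rfl, ?_⟩
        simp [π, Algebra.smul_def, Algebra.ofId_apply]
  have key' : ∀ k z (a : A), (ofTensorProduct n A z).val k = Submodule.Quotient.mk a ↔
      π k z = Ideal.Quotient.mk _ a := by
    intro k z a
    obtain ⟨b, h1, h2⟩ := key k z
    rw [h1, h2, Submodule.Quotient.eq, Ideal.Quotient.eq, mem]
  have bij := ofTensorProduct_bijective_of_finite_of_isNoetherian n A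
  intro x h1 h2 k
  obtain ⟨z, hz⟩ := bij.2 (mk n A (AdicCauchySequence.mk n A x fun k =>
    (SModEq.sub_mem.2 ((mem k _).2 (h1 k))).symm))
  have e : ∀ k, π k z = Ideal.Quotient.mk _ (x k) := fun k => (key' k z _).1 (by rw [hz]; rfl)
  have z2 : z ^ 2 = 0 := bij.1 (by
    rw [_root_.map_zero]
    ext k
    refine ((key' k _ 0).2 ?_).trans (by simp)
    rw [map_pow, e, ← map_pow, Ideal.Quotient.eq, sub_zero]
    exact h2 k)
  have z0 : z = 0 := IsNilpotent.eq_zero ⟨2, z2⟩
  rw [← Ideal.Quotient.eq_zero_iff_mem, ← e, z0, _root_.map_zero]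

theorem SeqRed.of_le {A : Type} [CommRing A] {J m : Ideal A} (h : SeqRed J) (hle : J ≤ m) {s : A}
    {t : ℕ} (ht : 1 ≤ t) (h1 : 1 - s ∈ m) (hs : Ideal.span {s} * m ^ t ≤ J) : SeqRed m := by
  have cop : IsCoprime (Ideal.span {s}) m :=
    Ideal.isCoprime_iff_exists.2 ⟨s, Ideal.mem_span_singleton_self s, 1 - s, h1, by ring⟩
  have inf : ∀ k y, y ∈ Ideal.span {s} ^ k → y ∈ m ^ (t * k) → y ∈ J ^ k := fun k y a b => by
    have : y ∈ Ideal.span {s} ^ k * m ^ (t * k) := by
      rw [Ideal.mul_eq_inf_of_isCoprime cop.pow]; exact ⟨a, b⟩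
    rw [pow_mul, ← mul_pow] at this
    exact Ideal.pow_right_mono hs k this
  have ex : ∀ k, ∃ e ∈ Ideal.span {s} ^ k, 1 - e ∈ m ^ (t * k) := fun k => by
    obtain ⟨e, he, f, hf, hef⟩ := Ideal.isCoprime_iff_exists.1 (cop.pow (m := k) (n := t * k))
    exact ⟨e, he, by rw [← hef]; simpa using hf⟩
  choose e he he' using ex
  intro x c1 c2
  have c3 : ∀ k l, x (k + l) - x k ∈ m ^ k := fun k l => by
    induction l with
    | zero => simp
    | succ l ih =>
      have := add_mem (Ideal.pow_le_pow_right (Nat.le_add_right k l) (c1 (k + l))) ih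
      rwa [sub_add_sub_cancel] at this
  have main := h (fun k => e k * x (t * k)) (fun k => inf k _ ?_ ?_) (fun k => inf k _ ?_ ?_)
  · intro k
    have hk : k ≤ t * k := Nat.le_mul_of_pos_left k ht
    have a1 : e k * x (t * k) ∈ m ^ k := Ideal.pow_right_mono hle k (main k)
    have a2 : (1 - e k) * x (t * k) ∈ m ^ k :=
      Ideal.mul_mem_right _ _ (Ideal.pow_le_pow_right hk (he' k))
    have a3 := c3 k (t * k - k)
    rw [Nat.add_sub_cancel' hk] at a3
    have := sub_mem (add_mem a1 a2) a3
    convert this using 1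
    ring
  · exact sub_mem (Ideal.mul_mem_right _ _ (Ideal.pow_le_pow_right k.le_succ (he (k + 1))))
      (Ideal.mul_mem_right _ _ (he k))
  · have a1 := Ideal.mul_mem_right (x (t * (k + 1))) _
      (Ideal.pow_le_pow_right (Nat.mul_le_mul_left t k.le_succ) (he' (k + 1)))
    have a2 := Ideal.mul_mem_right (x (t * k)) _ (he' k)
    have a3 := c3 (t * k) t
    have := add_mem (sub_mem a3 a1) a2
    rw [← Nat.mul_succ] at this
    convert this using 1
    ring
  · rw [mul_pow, sq (e k), mul_assoc]; exact Ideal.mul_mem_right _ _ (he k)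
  · rw [mul_pow]; exact Ideal.mul_mem_left _ _ (c2 _)

open MvPolynomial in
/-- an affine domain over `ℂ` is analytically unramified at a rational point -/
theorem seqRed (A : Type) [CommRing A] [IsDomain A] [Algebra ℂ A] [Algebra.FiniteType ℂ A]
    (ev : A →ₐ[ℂ] ℂ) : SeqRed (RingHom.ker ev) := by
  obtain ⟨d, g₀, inj₀, fin₀⟩ := exists_finite_inj_algHom_of_fg ℂ A
  let c : Fin d → ℂ := fun i => ev (g₀ (X i))
  let τ : (Fin d → ℂ) → MvPolynomial (Fin d) ℂ →ₐ[ℂ] MvPolynomial (Fin d) ℂ := fun c =>
    aeval fun i => X i - C (c i)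
  have τ1 : ∀ c p, τ c (τ (-c) p) = p := fun c p => by
    have : (τ c).comp (τ (-c)) = AlgHom.id _ _ := by ext i : 1; simp [τ]
    exact DFunLike.congr_fun this p
  have τs : Function.Surjective (τ c) := fun p => ⟨_, τ1 c p⟩
  have τi : Function.Injective (τ c) := Function.LeftInverse.injective (g := τ (-c)) fun p => by
    simpa using τ1 (-c) p
  let g := g₀.comp (τ c)
  have inj : Function.Injective g := inj₀.comp τi
  have fin : g.Finite := fin₀.comp (AlgHom.Finite.of_surjective _ τs)
  have g0 : ∀ i, ev (g (X i)) = 0 := fun i => by simp [g, τ, c]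
  clear_value g
  let _ := g.toRingHom.toAlgebra
  have : Module.Finite (MvPolynomial (Fin d) ℂ) A := fin
  have : FaithfulSMul (MvPolynomial (Fin d) ℂ) A := (faithfulSMul_iff_algebraMap_injective _ _).2 inj
  have : IsScalarTower ℂ (MvPolynomial (Fin d) ℂ) A := .of_algebraMap_eq fun r => (g.commutes r).symm
  set n := idealOfVars (Fin d) ℂ
  have : IsDomain (MvPowerSeries (Fin d) ℂ) := NoZeroDivisors.to_isDomain _
  have : IsDomain (AdicCompletion n (MvPolynomial (Fin d) ℂ)) :=
    (MvPowerSeries.toAdicCompletionAlgEquiv (Fin d) ℂ).symm.toMulEquiv.isDomain _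
  have := red_tensor (MvPolynomial (Fin d) ℂ) A (AdicCompletion n (MvPolynomial (Fin d) ℂ))
  have h := seqRed_of_red (MvPolynomial (Fin d) ℂ) A n
  set J := n.map (algebraMap (MvPolynomial (Fin d) ℂ) A)
  set m := RingHom.ker ev
  have hle : J ≤ m := by
    refine Ideal.map_le_iff_le_comap.2 (Ideal.span_le.2 ?_)
    rintro _ ⟨i, rfl⟩
    exact g0 i
  have : IsNoetherianRing A := Algebra.FiniteType.isNoetherianRing ℂ A
  have cc : ∀ b : MvPolynomial (Fin d) ℂ, b - C (constantCoeff b) ∈ n := fun b => by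
    induction b using MvPolynomial.induction_on with
    | C a => simp
    | add p q hp hq =>
      have := add_mem hp hq
      convert this using 1
      rw [map_add, map_add]; ring
    | mul_X p i _ =>
      rw [map_mul, constantCoeff_X, mul_zero, map_zero, sub_zero]
      exact Ideal.mul_mem_left _ _ (Ideal.subset_span ⟨i, rfl⟩)
  have : Module.Finite ℂ (A ⧸ J) := Module.Finite.of_surjective
    ({ toFun := Ideal.Quotient.mk J
       map_add' := map_add _
       map_smul' := fun b a => by
        rw [Algebra.smul_def, Algebra.smul_def, map_mul, ← Ideal.Quotient.mk_algebraMap,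
          IsScalarTower.algebraMap_apply ℂ (MvPolynomial (Fin d) ℂ) A]
        congr 1
        rw [Ideal.Quotient.eq, ← map_sub]
        exact Ideal.mem_map_of_mem _ (cc b) } :
      A →ₛₗ[(constantCoeff : MvPolynomial (Fin d) ℂ →+* ℂ)] A ⧸ J) Ideal.Quotient.mk_surjective
  have : IsArtinianRing (A ⧸ J) := IsArtinianRing.of_finite ℂ _
  obtain ⟨t, ht⟩ := IsArtinian.monotone_stabilizes (R := A ⧸ J) (M := A ⧸ J)
    ⟨fun k => OrderDual.toDual (m.map (Ideal.Quotient.mk J) ^ k), fun a b hab =>
      Ideal.pow_le_pow_right hab⟩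
  have e : m.map (Ideal.Quotient.mk J) ^ (t + 1) = m.map (Ideal.Quotient.mk J) ^ (t + 1 + 1) :=
    (ht (t + 1) (by omega)).symm.trans (ht (t + 1 + 1) (by omega))
  obtain ⟨r, hr, hr0⟩ := Submodule.exists_sub_one_mem_and_smul_eq_zero_of_fg_of_le_smul
    (m.map (Ideal.Quotient.mk J)) (m.map (Ideal.Quotient.mk J) ^ (t + 1))
    (IsNoetherian.noetherian _) (by rw [smul_eq_mul, ← pow_succ', ← e])
  obtain ⟨u, hu, hu'⟩ := (Ideal.mem_map_iff_of_surjective _ Ideal.Quotient.mk_surjective).1 hr
  refine h.of_le hle (s := 1 + u) (t := t + 1) (by omega) (by simpa using hu) ?_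
  refine Ideal.mul_le.2 fun a ha b hb => ?_
  obtain ⟨a, rfl⟩ := Ideal.mem_span_singleton'.1 ha
  rw [mul_assoc]
  refine Ideal.mul_mem_left _ _ (Ideal.Quotient.eq_zero_iff_mem.1 ?_)
  rw [map_mul, map_add, map_one, hu', add_sub_cancel]
  exact hr0 _ (by rw [← Ideal.map_pow]; exact Ideal.mem_map_of_mem _ hb)

end Vale.Agent.P282A7
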