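import Vale.Agent.P282A71.Sk2

/-!
P282: a normal affine model of a normal local ring (row NORM)
-/

open IsLocalRing

namespace Vale.Agent.P282A7

/-- the integral closure of a normal noetherian domain in a normal algebraic extension -/
theorem closure_finite (B R : Type) [CommRing B] [IsDomain B] [IsIntegrallyClosed B]
    [IsNoetherianRing B] [CharZero B] [CommRing R] [IsDomain R] [IsIntegrallyClosed R] [Algebra B R]
    [FaithfulSMul B R] [Algebra.EssFiniteType B R] [Algebra.IsAlgebraic B R] :
    Module.Finite B (integralClosure B R) ∧ IsIntegrallyClosed (integralClosure B R) := by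
  let K := FractionRing B
  let L := FractionRing R
  let _ : Algebra K L := FractionRing.liftAlgebra B L
  have : IsScalarTower B K L := FractionRing.isScalarTower_liftAlgebra B L
  have : Algebra.IsAlgebraic R L := IsLocalization.isAlgebraic L (nonZeroDivisors R)
  have : Algebra.IsAlgebraic B L := Algebra.IsAlgebraic.trans B R L
  have : Algebra.IsAlgebraic K L := Algebra.IsAlgebraic.extendScalars (R := B)
    (IsFractionRing.injective B K)
  have : Algebra.EssFiniteType R L := Algebra.EssFiniteType.of_isLocalization L (nonZeroDivisors R)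
  have : Algebra.EssFiniteType B L := Algebra.EssFiniteType.comp B R L
  have : Algebra.EssFiniteType K L := Algebra.EssFiniteType.of_comp B K L
  have : Module.Finite K L := Algebra.finite_of_essFiniteType_of_isAlgebraic
  have : IsIntegralClosure (integralClosure B R) B L :=
    ⟨(IsFractionRing.injective R L).comp Subtype.val_injective, fun {x} => ⟨fun h => by
      obtain ⟨y, rfl⟩ := (isIntegrallyClosed_iff L).1 ‹IsIntegrallyClosed R› h.tower_top
      exact ⟨⟨y, (isIntegral_algebraMap_iff (IsFractionRing.injective R L)).1 h⟩, rfl⟩, by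
      rintro ⟨y, rfl⟩
      exact (isIntegral_algebraMap_iff (IsFractionRing.injective R L)).2 y.2⟩⟩
  have : IsFractionRing (integralClosure B R) L :=
    IsIntegralClosure.isFractionRing_of_finite_extension B K L _
  exact ⟨IsIntegralClosure.finite B K L _, (isIntegrallyClosed_iff L).2 fun {x} h =>
    (IsIntegralClosure.isIntegral_iff (A := integralClosure B R) (R := B)).1 (isIntegral_trans x h)⟩

end Vale.Agent.P282A7

namespace Vale.Agent.P282A71

open Vale.Agent.P282A7

theorem norm7 : NORM := by
  intro R _ _ _ _ _ _ hs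
  let A₀ := Algebra.EssFiniteType.subalgebra ℂ R
  obtain ⟨d, g, inj, fin⟩ := exists_finite_inj_algHom_of_fg ℂ A₀
  let B := MvPolynomial (Fin d) ℂ
  let _ : Algebra B A₀ := g.toRingHom.toAlgebra
  let _ : Algebra B R := ((algebraMap A₀ R).comp g.toRingHom).toAlgebra
  have : IsScalarTower B A₀ R := .of_algebraMap_eq fun _ => rfl
  have : IsScalarTower ℂ B R := .of_algebraMap_eq fun r =>
    congrArg Subtype.val (g.commutes r).symm
  have : Module.Finite B A₀ := fin
  have : FaithfulSMul B R :=
    (faithfulSMul_iff_algebraMap_injective _ _).2 (Subtype.val_injective.comp inj)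
  have : Algebra.EssFiniteType B R := Algebra.EssFiniteType.of_comp ℂ B R
  have : Algebra.IsAlgebraic A₀ R :=
    IsLocalization.isAlgebraic R (Algebra.EssFiniteType.submonoid ℂ R)
  have : Algebra.IsAlgebraic B R := Algebra.IsAlgebraic.trans B A₀ R
  obtain ⟨h1, h2⟩ := closure_finite B R
  let A : Subalgebra ℂ R := (integralClosure B R).restrictScalars ℂ
  have ft : Algebra.FiniteType ℂ (integralClosure B R) :=
    Algebra.FiniteType.trans (S := B) inferInstance inferInstance
  have le : ∀ a : A₀, (a : R) ∈ A := fun a =>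
    (Algebra.IsIntegral.isIntegral (R := B) a).algebraMap (B := R)
  have sur : Function.Surjective ((residue R).comp (algebraMap A R)) := fun x => by
    obtain ⟨c, rfl⟩ := hs x
    exact ⟨algebraMap ℂ A c, rfl⟩
  refine ⟨A, (Subalgebra.fg_iff_finiteType A).2 ft, h2, _,
    RingHom.ker_isMaximal_of_surjective _ sur, ⟨fun y => ?_, fun r => ?_, fun {x y} h => ?_⟩⟩
  · exact (residue_ne_zero_iff_isUnit _).1 y.2
  · obtain ⟨⟨a, s⟩, e⟩ := IsLocalization.surj (Algebra.EssFiniteType.submonoid ℂ R) r
    exact ⟨⟨⟨a, le a⟩, ⟨⟨s.1, le s.1⟩, (residue_ne_zero_iff_isUnit _).2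
      (IsLocalization.map_units R s)⟩⟩, e⟩
  · exact ⟨1, by rw [Subtype.val_injective h]⟩

end Vale.Agent.P282A71
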