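import Vale.Agent.P282A7.Alg
import Vale.Agent.P282A71.Sk
import Vale.Agent.P277Z.Oka.All

/-!
P282, analytic double points: the row RAD.
-/

open Filter Topology IsLocalRing MvPolynomial
open Vale.Agent.P298.H941 Vale.Agent.P277Z.Oka Vale.Agent.P282A7

namespace Vale.Agent.P282A71

theorem JetIso.isRadical7 {R S : Type} [CommRing R] [CommRing S] [Algebra ℂ R] [Algebra ℂ S]
    [IsNoetherianRing S] [IsLocalRing S] {f : R →ₐ[ℂ] S} {m : Ideal R}
    (h : JetIso f m (maximalIdeal S)) (I : Ideal R) (hI : SeqRed (m.map (Ideal.Quotient.mk I))) :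
    (I.map f).IsRadical := by
  have q : ∀ k, ∀ s ∈ I.map f, ∃ y ∈ I, s - f y ∈ maximalIdeal S ^ k := by
    intro k s hs
    induction hs using Submodule.span_induction with
    | mem s hs =>
      obtain ⟨y, hy, rfl⟩ := hs
      exact ⟨y, hy, by simp⟩
    | zero => exact ⟨0, zero_mem _, by simp⟩
    | add s s' _ _ h1 h2 =>
      obtain ⟨y, hy, e⟩ := h1
      obtain ⟨y', hy', e'⟩ := h2
      refine ⟨y + y', add_mem hy hy', ?_⟩
      convert add_mem e e' using 1
      rw [map_add]; ring
    | smul a s _ h1 =>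
      obtain ⟨y, hy, e⟩ := h1
      obtain ⟨b, e'⟩ := h.dense k a
      refine ⟨b * y, Ideal.mul_mem_left _ _ hy, ?_⟩
      convert add_mem (Ideal.mul_mem_left _ a e) (Ideal.mul_mem_right (f y) _ e') using 1
      rw [map_mul, smul_eq_mul]; ring
  have q' : ∀ k x, ∀ s ∈ I.map f, s - f x ∈ maximalIdeal S ^ k →
      Ideal.Quotient.mk I x ∈ m.map (Ideal.Quotient.mk I) ^ k := by
    intro k x s hs e
    obtain ⟨y, hy, e'⟩ := q k s hs
    have : x - y ∈ m ^ k := (h.mem k _).1 (by
      convert sub_mem e' e using 1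
      rw [map_sub]; ring)
    have := Ideal.mem_map_of_mem (Ideal.Quotient.mk I) this
    rwa [Ideal.map_pow, map_sub, Ideal.Quotient.eq_zero_iff_mem.2 hy, sub_zero] at this
  rw [Ideal.isRadical_iff_pow_one_lt 2 one_lt_two]
  intro s hs
  choose x hx using fun k => h.dense k s
  have main := hI (fun k => Ideal.Quotient.mk I (x k)) (fun k => by
    rw [← map_sub]
    refine q' k _ 0 (zero_mem _) ?_
    convert sub_mem (Ideal.pow_le_pow_right k.le_succ (hx (k + 1))) (hx k) using 1
    rw [map_sub]; ring) (fun k => by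
    rw [← map_pow]
    refine q' k _ _ hs ?_
    convert Ideal.mul_mem_right (s + f (x k)) _ (hx k) using 1
    rw [map_pow]; ring)
  rw [← Ideal.Quotient.eq_zero_iff_mem, ← Submodule.mem_bot S,
    ← Ideal.iInf_pow_smul_eq_bot_of_isLocalRing (M := S ⧸ I.map f) (maximalIdeal S)
      (maximalIdeal.isMaximal S).ne_top, Submodule.mem_iInf]
  intro k
  have := main k
  rw [← Ideal.map_pow, Ideal.mem_map_iff_of_surjective _ Ideal.Quotient.mk_surjective] at this
  obtain ⟨y, hy, e⟩ := this
  have e1 : f y - f (x k) ∈ I.map f := by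
    rw [← map_sub]; exact Ideal.mem_map_of_mem _ (Ideal.Quotient.eq.1 e)
  have e2 : Ideal.Quotient.mk (I.map f) s = Ideal.Quotient.mk (I.map f) (s - f (x k) + f y) := by
    rw [Ideal.Quotient.eq]
    convert neg_mem e1 using 1
    ring
  rw [e2, Ideal.smul_top_eq_map]
  exact Ideal.mem_map_of_mem _ (add_mem (hx k) ((h.mem k y).2 hy))

theorem ana_eval7 {N : ℕ} (p : MvPolynomial (Fin N) ℂ) (x : Fin N → ℂ) :
    AnalyticAt ℂ (fun z : Fin N → ℂ => eval z p) x := by
  induction p using MvPolynomial.induction_on with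
  | C a => simpa using analyticAt_const
  | add p q hp hq => simpa using hp.fun_add hq
  | mul_X p i hp => simpa using hp.fun_mul (ana_proj i x)

theorem pl_eq7 {N : ℕ} (p : MvPolynomial (Fin N) ℂ) :
    pl N p = mk (fun z => eval z p) (ana_eval7 p 0) := by
  induction p using MvPolynomial.induction_on with
  | C a => rw [pl, aeval_C, P298.H941.algebraMap_eq]; exact mk_congr _ _ (.of_forall fun z => by simp)
  | add p q hp hq => rw [map_add, hp, hq, mk_add]; exact mk_congr _ _ (.of_forall fun z => by simp)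
  | mul_X p i hp =>
    rw [map_mul, hp, pl, aeval_X, zc, mk_mul]; exact mk_congr _ _ (.of_forall fun z => by simp)

/-- the extension of a prime ideal to the ring of germs is radical -/
theorem ex_radical7 (h : JET) {N : ℕ} (I : Ideal (MvPolynomial (Fin N) ℂ)) (hI : I.IsPrime)
    (h0 : ∀ p ∈ I, eval 0 p = 0) : (ex I).IsRadical := by
  have : IsNoetherianRing (ON N) := noe _
  refine (h N).2.isRadical7 I ?_
  have e : RingHom.ker (Ideal.Quotient.liftₐ I (aeval (0 : Fin N → ℂ)) h0) =
      (Ideal.span (Set.range X)).map (Ideal.Quotient.mk I) := by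
    refine le_antisymm (fun a ha => ?_) (Ideal.map_le_iff_le_comap.2 (Ideal.span_le.2 ?_))
    · obtain ⟨p, rfl⟩ := Ideal.Quotient.mk_surjective a
      refine Ideal.mem_map_of_mem _ ?_
      have := ((h N).2.mem 1 p).1 (by rw [pow_one, P298.H941.mem_maximalIdeal, pl_eq7]; exact ha)
      rwa [pow_one] at this
    · rintro _ ⟨i, rfl⟩
      exact aeval_X (R := ℂ) (0 : Fin N → ℂ) i
  rw [← e]
  exact seqRed _ _

theorem rad7 (h : JET) : RAD := by
  intro N I hI h0 f hf hv
  obtain ⟨n, s, hs⟩ := Submodule.fg_iff_exists_fin_generating_family.1 (IsNoetherian.noetherian I)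
  have hg := fun i => ana_eval7 (s i) (0 : Fin N → ℂ)
  obtain ⟨k, hk⟩ := nul_all _ (Fin n) 0 (fun i z => eval z (s i)) hg f hf (by
    filter_upwards [eventually_nhdsWithin_iff.1 hv] with z hz hz'
    refine hz fun p hp => ?_
    have : I ≤ RingHom.ker (eval z) := by
      rw [← hs]
      refine Ideal.span_le.2 ?_
      rintro _ ⟨i, rfl⟩
      exact hz' i
    exact this hp)
  rw [in_iff hg (hf.fun_pow k), gm_pow hf, gm_zero_eq hf] at hk
  refine ex_radical7 h I hI h0 ⟨k, Ideal.span_le.2 ?_ hk⟩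
  rintro _ ⟨i, rfl⟩
  have := Ideal.mem_map_of_mem (pl N) (hs ▸ Submodule.subset_span ⟨i, rfl⟩ : s i ∈ I)
  rwa [pl_eq7, ← gm_zero_eq] at this

end Vale.Agent.P282A71
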